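import Vale.Agent.P155.T211Q.ContSame
import Vale.Agent.P155.H878.DetIface

/-!
# P155, literal Q1, block SAME (Q-b)

`same_prob`: two points in the same loop of level `k + 1`, both at distance `≥ s` from the gasket
of level `k + 1`, are not separated by a small bottleneck, up to a small probability.
`same_det`: the resulting property of typical sequences (the field `same` of `GoodSeq`).
-/

namespace Vale.Agent.P155.T211Q

open Metric TopologicalSpace Topology MeasureTheory Filter Vale.Agent.P155 ProbabilityTheory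

/-- a ball centred in `Ω` which is not inside `Ω` contains a boundary point -/
theorem exists_frontier {Ω : Set ℂ} (hΩ : IsOpen Ω) {z : ℂ} (hz : z ∈ Ω) {ρ : ℝ} (hρ : 0 ≤ ρ)
    (h : ¬ closedBall z ρ ⊆ Ω) : ∃ p ∈ frontier Ω, dist z p ≤ ρ := by
  obtain ⟨y, hy, hyΩ⟩ := Set.not_subset.1 h
  by_contra hcon
  push Not at hcon
  have hcov : closedBall z ρ ⊆ Ω ∪ (closure Ω)ᶜ := by
    intro w hw
    by_cases hwΩ : w ∈ Ω
    · exact Or.inl hwΩ
    · refine Or.inr fun hw' => ?_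
      have hf : w ∈ frontier Ω := by
        rw [frontier, hΩ.interior_eq]
        exact ⟨hw', hwΩ⟩
      have h1 := hcon w hf
      rw [mem_closedBall, dist_comm] at hw
      linarith
  have hy' : y ∈ (closure Ω)ᶜ := by
    rcases hcov hy with h1 | h1
    · exact absurd h1 hyΩ
    · exact h1
  obtain ⟨w, -, hw1, hw2⟩ := (convex_closedBall z ρ).isPreconnected Ω (closure Ω)ᶜ hΩ
    isClosed_closure.isOpen_compl hcov ⟨z, mem_closedBall_self hρ, hz⟩ ⟨y, hy, hy'⟩
  exact hw2 (subset_closure hw1)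

variable {Θ : Type} [MeasurableSpace Θ] {P : Measure Θ} {Ω : Set ℂ}
    {G : ℕ → Θ → NonemptyCompacts ℂ} {ξ : ℕ → ℕ → Θ → ℝ}

/-- near the boundary: the gasket comes close -/
theorem infDist_gasket_lt (S : TempApprox Ω) {z p : ℂ} {s : ℝ} (hs : 0 < s)
    (hp : p ∈ frontier Ω) (hd : dist z p ≤ s / 2) (k : ℕ) :
    ∀ᶠ n in atTop, ∀ ω : Conf, infDist z (gasket (S.δ n) (S.a n) (S.T n) k ω) < s := by
  filter_upwards [S.haus₂ (s / 4) (by positivity)] with n hn ω
  obtain ⟨q, hq, hpq⟩ := mem_thickening_iff.1 (hn hp)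
  have hq' : q ∈ gasket (S.δ n) (S.a n) (S.T n) k ω := by
    apply KConn.gasket_mono _ _ _ _ (Nat.zero_le k)
    rw [KConn.gasket_zero (S.pos n)]
    exact hq
  have h1 := infDist_le_dist_of_mem (x := z) hq'
  have h2 := dist_triangle z p q
  linarith

theorem Pr_false (T : Temp) {p : Conf → Prop} (h : ∀ ω, ¬ p ω) : Pr T.V p = 0 := by
  unfold Pr Ex
  have : ∀ ω, Set.indicator {ω | p ω} (fun _ => (1 : ℝ)) ω = 0 := fun ω =>
    Set.indicator_of_notMem (h ω) _
  simp only [this, Finset.sum_const_zero, smul_zero]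

/-- **SAME**, probabilistic form -/
theorem same_prob (hΩ : IsOpen Ω) (S : TempApprox Ω) (h : FairCarpets P Ω G ξ)
    (hconv : ∀ (k m : ℕ) (χ : Fin m → ℂ → ℝ), (∀ i, IsTest Ω (χ i)) →
      ∀ F : (Fin k → NonemptyCompacts ℂ) × (Fin k → Fin m → ℝ) → ℝ, Continuous F →
      (∃ C, ∀ y, |F y| ≤ C) →
      Tendsto (fun n => Ex (S.T n).V (fun ω =>
        F (fun l => toNC (gasket (S.δ n) (S.a n) (S.T n) l ω),
          fun l i => heightInt (S.δ n) (S.a n) l ω (χ i)))) atTop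
        (𝓝 (∫ x, F (fun l => G l x, fun l i =>
          ∫ z, Q1.height Ω (fun j => G j x) (fun j i => ξ j i x) l z * χ i z) ∂P)))
    (k : ℕ) {z z' : ℂ} (hz : z ∈ Ω) (hz' : z' ∈ Ω) {s ε : ℝ} (hs : 0 < s) (hε : 0 < ε) :
    ∃ r > 0, ∀ᶠ n in atTop, Pr (S.T n).V (fun ω =>
      s ≤ infDist z (gasket (S.δ n) (S.a n) (S.T n) (k + 1) ω) ∧
      s ≤ infDist z' (gasket (S.δ n) (S.a n) (S.T n) (k + 1) ω) ∧
      bott z z' (gasket (S.δ n) (S.a n) (S.T n) (k + 1) ω) ≤ r ∧
      SameLev (k + 1) ω (K.cell (S.δ n) (S.a n) z) (K.cell (S.δ n) (S.a n) z')) < ε := by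
  have := h.prob
  by_cases hB : closedBall z (s / 2) ⊆ Ω ∧ closedBall z' (s / 2) ⊆ Ω
  · obtain ⟨hB1, hB2⟩ := hB
    have hb : Measurable fun x => bott z z' (G (k + 1) x) := by
      let _ : MeasurableSpace (NonemptyCompacts ℂ) := borel _
      have : BorelSpace (NonemptyCompacts ℂ) := ⟨rfl⟩
      exact (continuous_bott z z').measurable.comp (h.mG (k + 1))
    obtain ⟨r, hr, hrε⟩ := exists_small (P := P) hb hε
    obtain ⟨φ0, t0, i0⟩ := exists_bump z (ρ := s / 2) (by positivity)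
    obtain ⟨φ1, t1, i1⟩ := exists_bump z' (ρ := s / 2) (by positivity)
    refine ⟨r, hr, ?_⟩
    have hχ : ∀ i, IsTest Ω ((![φ0, φ1] : Fin 2 → ℂ → ℝ) i) := by
      intro i
      fin_cases i
      · exact K1.IsTest_mono (ball_subset_closedBall.trans hB1) t0
      · exact K1.IsTest_mono (ball_subset_closedBall.trans hB2) t1
    have hc := hconv (k + 2) 2 ![φ0, φ1] hχ (Fw k r s z z') (continuous_Fw k r s z z')
      ⟨1, abs_Fw_le k r s z z'⟩
    have hle := h.int_Fw hΩ k hr hs hB1 hB2 (χ := ![φ0, φ1]) t0 i0 t1 i1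
    have ev := hc.eventually (gt_mem_nhds (hle.trans_lt hrε))
    filter_upwards [ev, S.cara₁ _ hB1 (isCompact_closedBall z _),
      S.cara₁ _ hB2 (isCompact_closedBall z' _)] with n h1 h2 h3
    exact (Pr_le_Ex (S.pos n) hr hs h2 h3 (χ := ![φ0, φ1]) t0 i0 t1 i1).trans_lt h1
  · refine ⟨1, one_pos, ?_⟩
    rw [not_and_or] at hB
    rcases hB with hB | hB
    · obtain ⟨p, hp, hd⟩ := exists_frontier hΩ hz (by positivity) hB
      filter_upwards [infDist_gasket_lt S hs hp hd (k + 1)] with n hn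
      rw [Pr_false _ fun ω h' => absurd h'.1 (not_le.2 (hn ω))]
      exact hε
    · obtain ⟨p, hp, hd⟩ := exists_frontier hΩ hz' (by positivity) hB
      filter_upwards [infDist_gasket_lt S hs hp hd (k + 1)] with n hn
      rw [Pr_false _ fun ω h' => absurd h'.2.1 (not_le.2 (hn ω))]
      exact hε

/-! ### the deterministic consequence -/

theorem surr_eq {δ : ℝ} (hδ : 0 < δ) {a z : ℂ} {T : Temp} {ω : Conf} (hω : ω ∈ DD T.V) {k : ℕ}
    (hk : 1 ≤ k) (hz : z ∈ interior (region δ a (Ok T k ω))) {f g : Pt} (hf : z ∈ sqr δ a f)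
    (hg : z ∈ sqr δ a g) {A : Set Pt} (hA : A ∈ Loops ω) (hl : level ω A = k)
    (hs : surr ω A f) : surr ω A g := by
  rw [KConn.mem_interior_region_iff hδ] at hz
  have hN : ∀ q, z ∈ sqr δ a q → k ≤ N ω q := fun q hq => (hz q hq).2
  obtain ⟨h1, h2, h3, h4⟩ := KConn.close_of_meet hδ hf hg
  have hmid : z ∈ sqr δ a (f.1, g.2) := by
    rw [KConn.mem_sqr hδ] at hf hg ⊢
    exact ⟨hf.1, hf.2.1, hg.2.2.1, hg.2.2.2⟩
  have step1 : surr ω A (f.1, g.2) := by
    by_cases he : f.2 = g.2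
    · rw [← he]; exact hs
    · refine L.same_level_adj hω hk hA hl ?_ hs (hN _ hmid)
      unfold Adj
      simp only [sub_self, abs_zero, zero_add]
      rcases lt_or_gt_of_ne he with h | h
      · rw [abs_eq (by norm_num)]; right; omega
      · rw [abs_eq (by norm_num)]; left; omega
  by_cases he : f.1 = g.1
  · have : g = (f.1, g.2) := Prod.ext he.symm rfl
    rw [this]; exact step1
  · refine L.same_level_adj hω hk hA hl ?_ step1 (hN _ hg)
    unfold Adj
    simp only [sub_self, abs_zero, add_zero]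
    rcases lt_or_gt_of_ne he with h | h
    · rw [abs_eq (by norm_num)]; right; omega
    · rw [abs_eq (by norm_num)]; left; omega

/-- the loop of level `k` around the points of a connected subset of the faces of `O^{(k)}` -/
theorem surr_const {δ : ℝ} (hδ : 0 < δ) {a : ℂ} {T : Temp} {ω : Conf} (hω : ω ∈ DD T.V) {k : ℕ}
    (hk : 1 ≤ k) {B : Set ℂ} (hB : IsPreconnected B)
    (hsub : B ⊆ interior (region δ a (Ok T k ω))) {z w : ℂ} (hz : z ∈ B) (hw : w ∈ B)
    {A : Set Pt} (hA : A ∈ Loops ω) (hl : level ω A = k) :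
    Q1.surrZ δ a ω A z ↔ Q1.surrZ δ a ω A w := by
  have : PreconnectedSpace B := isPreconnected_iff_preconnectedSpace.1 hB
  have hloc : IsLocallyConstant (fun x : B => Q1.surrZ δ a ω A x) := by
    rw [IsLocallyConstant.iff_eventually_eq]
    intro x
    have h1 : ∀ᶠ y in 𝓝 (x : ℂ), (x : ℂ) ∈ sqr δ a (K.cell δ a y) :=
      K1.eventually_mem_sqr hδ a x
    have h2 : ∀ᶠ y : B in 𝓝 x, (x : ℂ) ∈ sqr δ a (K.cell δ a y) :=
      (continuous_subtype_val.tendsto x).eventually h1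
    filter_upwards [h2] with y hy
    refine propext ⟨fun h => ?_, fun h => ?_⟩
    · exact surr_eq hδ hω hk (hsub x.2) hy (K1.mem_sqr_cell hδ a x) hA hl h
    · exact surr_eq hδ hω hk (hsub x.2) (K1.mem_sqr_cell hδ a x) hy hA hl h
  exact iff_of_eq (hloc.apply_eq_of_preconnectedSpace ⟨z, hz⟩ ⟨w, hw⟩)

/-- **SAME**, deterministic form: the field `same` of `Q1.GoodSeq`, from the tight condition for
the points of a dense set `D`. -/
theorem same_det (hΩ : IsOpen Ω) (S : TempApprox Ω) {n : ℕ → ℕ} {ω : ℕ → Conf}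
    {G : ℕ → NonemptyCompacts ℂ} (hlim : Tendsto n atTop atTop)
    (hmem : ∀ j, ω j ∈ DD (S.T (n j)).V)
    (hgas : ∀ k, Tendsto (fun j => toNC (gasket (S.δ (n j)) (S.a (n j)) (S.T (n j)) k (ω j)))
      atTop (𝓝 (G k)))
    (hzero : (G 0 : Set ℂ) = frontier Ω) {D : Set ℂ} (hD : Dense D)
    (hS : ∀ k : ℕ, ∀ z ∈ D ∩ Ω, ∀ z' ∈ D ∩ Ω, ∀ s : ℝ, 0 < s → (∃ m : ℕ, s = 1 / ((m : ℝ) + 1)) →
      ∃ r > 0, ∀ᶠ j in atTop,
      ¬ (s ≤ infDist z (gasket (S.δ (n j)) (S.a (n j)) (S.T (n j)) (k + 1) (ω j)) ∧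
      s ≤ infDist z' (gasket (S.δ (n j)) (S.a (n j)) (S.T (n j)) (k + 1) (ω j)) ∧
      bott z z' (gasket (S.δ (n j)) (S.a (n j)) (S.T (n j)) (k + 1) (ω j)) ≤ r ∧
      SameLev (k + 1) (ω j) (K.cell (S.δ (n j)) (S.a (n j)) z)
        (K.cell (S.δ (n j)) (S.a (n j)) z'))) :
    ∀ k, 1 ≤ k → ∀ z z', z ∈ Ω \ (G k : Set ℂ) → z' ∈ Ω \ (G k : Set ℂ) →
    connectedComponentIn (Ω \ G k) z ≠ connectedComponentIn (Ω \ G k) z' →
    ∀ᶠ j in atTop, ¬ ∃ L ∈ Loops (ω j), level (ω j) L = k ∧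
      Q1.surrZ (S.δ (n j)) (S.a (n j)) (ω j) L z ∧ Q1.surrZ (S.δ (n j)) (S.a (n j)) (ω j) L z' := by
  intro k hk z z' hz hz' hne
  obtain ⟨k, rfl⟩ : ∃ k', k = k' + 1 := ⟨k - 1, by omega⟩
  have hcoe : ∀ j k, ((toNC (gasket (S.δ (n j)) (S.a (n j)) (S.T (n j)) k (ω j)) :
      NonemptyCompacts ℂ) : Set ℂ) = gasket (S.δ (n j)) (S.a (n j)) (S.T (n j)) k (ω j) :=
    fun j k => KConn.coe_toNC_gasket (S.pos _) _ _ _ (hmem j)
  have hinf : ∀ k w, Tendsto (fun j => infDist w (gasket (S.δ (n j)) (S.a (n j)) (S.T (n j)) k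
      (ω j))) atTop (𝓝 (infDist w (G k))) := by
    intro k w
    have h1 := ((continuous_infDist w).tendsto (G k)).comp (hgas k)
    refine h1.congr fun j => ?_
    show infDist w ((toNC (gasket (S.δ (n j)) (S.a (n j)) (S.T (n j)) k (ω j)) :
      NonemptyCompacts ℂ) : Set ℂ) = _
    rw [hcoe]
  -- the limit carpets contain the boundary
  have hfr : frontier Ω ⊆ (G (k + 1) : Set ℂ) := by
    intro w hw
    rw [← hzero] at hw
    have h0 : infDist w (G 0) = 0 := infDist_zero_of_mem hw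
    have hle : infDist w (G (k + 1)) ≤ infDist w (G 0) := by
      refine le_of_tendsto_of_tendsto' (hinf (k + 1) w) (hinf 0 w) (fun j => ?_)
      exact infDist_le_infDist_of_subset (KConn.gasket_mono _ _ _ _ (Nat.zero_le _))
        (KConn.gasket_nonempty (S.pos _) _ _ _ (hmem j))
    rw [h0] at hle
    rw [(G (k + 1)).isCompact.isClosed.mem_iff_infDist_zero (G (k + 1)).nonempty]
    exact le_antisymm hle infDist_nonneg
  have hU : IsOpen (Ω \ (G (k + 1) : Set ℂ)) := hΩ.sdiff (G (k + 1)).isCompact.isClosed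
  -- points of `D` near `z`, `z'`
  have key : ∀ y ∈ Ω \ (G (k + 1) : Set ℂ), ∃ w ∈ D, w ∈ Ω \ (G (k + 1) : Set ℂ) ∧
      connectedComponentIn (Ω \ (G (k + 1) : Set ℂ)) w =
        connectedComponentIn (Ω \ (G (k + 1) : Set ℂ)) y ∧
      ∀ᶠ j in atTop, ∀ A ∈ Loops (ω j), level (ω j) A = k + 1 →
        (Q1.surrZ (S.δ (n j)) (S.a (n j)) (ω j) A y ↔
          Q1.surrZ (S.δ (n j)) (S.a (n j)) (ω j) A w) := by
    intro y hy
    obtain ⟨ρ, hρ, hρs⟩ := nhds_basis_closedBall.mem_iff.mp (hU.mem_nhds hy)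
    obtain ⟨w, hwb, hwD⟩ := hD.exists_mem_open isOpen_ball ⟨y, mem_ball_self hρ⟩ |>
      fun ⟨w, h1, h2⟩ => (⟨w, h2, h1⟩ : ∃ w, w ∈ ball y ρ ∧ w ∈ D)
    have hwc : w ∈ closedBall y ρ := ball_subset_closedBall hwb
    refine ⟨w, hwD, hρs hwc, ?_, ?_⟩
    · have hc : w ∈ connectedComponentIn (Ω \ (G (k + 1) : Set ℂ)) y :=
        (convex_closedBall y ρ).isPreconnected.subset_connectedComponentIn
          (mem_closedBall_self hρ.le) hρs hwc
      exact (connectedComponentIn_eq hc).symm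
    · have e1 := hlim.eventually (S.cara₁ (closedBall y ρ) (fun w hw => (hρs hw).1)
        (isCompact_closedBall y ρ))
      have hpos : ρ < infDist y (G (k + 1) : Set ℂ) := by
        obtain ⟨g, hg, hgd⟩ := (G (k + 1)).isCompact.exists_infDist_eq_dist (G (k + 1)).nonempty y
        rw [hgd]
        by_contra hle
        push Not at hle
        exact (hρs (by rw [mem_closedBall, dist_comm]; exact hle : g ∈ closedBall y ρ)).2 hg
      filter_upwards [e1, (hinf (k + 1) y).eventually (lt_mem_nhds hpos)] with j h1 h2 A hA hl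
      exact surr_const (S.pos _) (hmem j) (by omega)
        (convex_closedBall y ρ).isPreconnected (ball_sub_Ok h1 h2) (mem_closedBall_self hρ.le) hwc
        hA hl
  obtain ⟨w, hwD, hw, hwc, hws⟩ := key z hz
  obtain ⟨w', hwD', hw', hwc', hws'⟩ := key z' hz'
  have hb0 : bott w w' (G (k + 1)) = 0 := by
    by_contra hb
    have hb' : 0 < bott w w' (G (k + 1) : Set ℂ) := lt_of_le_of_ne (bott_nonneg _ _ _) (Ne.symm hb)
    rw [← hole_iff hΩ (G (k + 1)).isCompact.isClosed (G (k + 1)).nonempty hfr hw.1] at hb'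
    apply hne
    rw [← hwc, ← hwc']
    exact connectedComponentIn_eq hb'
  have hp1 : 0 < infDist w (G (k + 1) : Set ℂ) :=
    ((G (k + 1)).isCompact.isClosed.notMem_iff_infDist_pos (G (k + 1)).nonempty).1 hw.2
  have hp2 : 0 < infDist w' (G (k + 1) : Set ℂ) :=
    ((G (k + 1)).isCompact.isClosed.notMem_iff_infDist_pos (G (k + 1)).nonempty).1 hw'.2
  obtain ⟨m, hm⟩ := exists_nat_one_div_lt (lt_min hp1 hp2)
  obtain ⟨r, hr, hev⟩ := hS k w ⟨hwD, hw.1⟩ w' ⟨hwD', hw'.1⟩ (1 / ((m : ℝ) + 1)) (by positivity)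
    ⟨m, rfl⟩
  have hbt : Tendsto (fun j => bott w w' (gasket (S.δ (n j)) (S.a (n j)) (S.T (n j)) (k + 1)
      (ω j))) atTop (𝓝 0) := by
    have h1 := ((continuous_bott w w').tendsto (G (k + 1))).comp (hgas (k + 1))
    rw [hb0] at h1
    refine h1.congr fun j => ?_
    show bott w w' ((toNC (gasket (S.δ (n j)) (S.a (n j)) (S.T (n j)) (k + 1) (ω j)) :
      NonemptyCompacts ℂ) : Set ℂ) = _
    rw [hcoe]
  filter_upwards [hev, hws, hws', hbt.eventually (gt_mem_nhds hr),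
    (hinf (k + 1) w).eventually (lt_mem_nhds (hm.trans_le (min_le_left _ _))),
    (hinf (k + 1) w').eventually (lt_mem_nhds (hm.trans_le (min_le_right _ _)))] with
    j h1 h2 h3 h4 h5 h6
  rintro ⟨A, hA, hl, ha, ha'⟩
  exact h1 ⟨h5.le, h6.le, h4.le, A, hA, hl, (h2 A hA hl).1 ha, (h3 A hA hl).1 ha'⟩

end Vale.Agent.P155.T211Q
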