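import Vale.Agent.P155.K1.Hk
import Vale.Agent.P155.HT426.Sym
import Vale.Agent.P155.K1.Extract

/-!
# P155, literal Q1, block SAME: covariance of the signs of the loops of level `k + 1`
-/

namespace Vale.Agent.P155.T211Q

open Finset SW HT

variable {V : Finset Pt} {ω : Conf}

/-- the points of the loops of level `k` around `f` -/
def SL (k : ℕ) (ω : Conf) (f : Pt) : Set Pt :=
  {v | ∃ A, A ∈ Loops ω ∧ level ω A = k ∧ surr ω A f ∧ v ∈ A}

/-- some loop of level `k` surrounds `f` and `f'` -/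
def SameLev (k : ℕ) (ω : Conf) (f f' : Pt) : Prop :=
  ∃ A ∈ Loops ω, level ω A = k ∧ surr ω A f ∧ surr ω A f'

theorem SL_swap (k : ℕ) (S : Set Pt) (ω : Conf) (f : Pt) : SL k (swapOn S ω) f = SL k ω f := by
  unfold SL
  simp only [loops_swap, level_swap, surr_swap]

theorem sameLev_swap (k : ℕ) (S : Set Pt) (ω : Conf) (f f' : Pt) :
    SameLev k (swapOn S ω) f f' ↔ SameLev k ω f f' := by
  unfold SameLev
  simp only [loops_swap, level_swap, surr_swap]

theorem cl_SL (k : ℕ) (ω : Conf) (f : Pt) : HT.Cl ω (SL k ω f) := by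
  constructor
  · rintro v ⟨A, h1, h2, h3, h4⟩
    exact ⟨A, h1, h2, h3, (cl_loop h1).1 v h4⟩
  · rintro v ⟨A, h1, h2, h3, h4⟩
    exact ⟨A, h1, h2, h3, (cl_loop h1).2 v h4⟩

/-- the increment of the height at `f` -/
noncomputable def ic (k : ℕ) (ω : Conf) (f : Pt) : ℤ := hk (k + 1) ω f - hk k ω f

open Classical in
/-- swapping the loop of level `k + 1` around `f` flips the increment at `f` -/
theorem ic_swap_self (hω : ω ∈ DD V) (k : ℕ) (f : Pt) :
    ic k (swapOn (SL (k + 1) ω f) ω) f = - ic k ω f := by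
  have hω' := swap_mem hω (cl_SL (k + 1) ω f)
  unfold ic
  rw [K1.hk_succ_sub hω, K1.hk_succ_sub hω', LF_swap, ← Finset.sum_neg_distrib]
  simp only [level_swap, surr_swap]
  refine Finset.sum_congr rfl fun A hA => ?_
  rw [Finset.mem_filter, mem_LF hω] at hA
  exact sign_swap_neg hω hA.1 fun v hv => ⟨A, hA.1, hA.2.1, hA.2.2, hv⟩

open Classical in
/-- swapping the loop of level `k + 1` around `f` does not change the increment at `f'`, if
`f` and `f'` are not in the same loop of level `k + 1` -/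
theorem ic_swap_other (hω : ω ∈ DD V) (k : ℕ) {f f' : Pt} (h : ¬ SameLev (k + 1) ω f f') :
    ic k (swapOn (SL (k + 1) ω f) ω) f' = ic k ω f' := by
  have hω' := swap_mem hω (cl_SL (k + 1) ω f)
  unfold ic
  rw [K1.hk_succ_sub hω, K1.hk_succ_sub hω', LF_swap]
  simp only [level_swap, surr_swap]
  refine Finset.sum_congr rfl fun A hA => ?_
  rw [Finset.mem_filter, mem_LF hω] at hA
  refine sign_swap_same ?_
  rw [Set.disjoint_left]
  rintro v hv ⟨B, hB1, hB2, hB3, hB4⟩
  by_cases hAB : A = B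
  · subst hAB
    exact h ⟨A, hA.1, hA.2.1, hB3, hA.2.2⟩
  · exact Set.disjoint_left.1 (L.loops_disjoint hω hA.1 hB1 hAB) hv hB4

open Classical in
theorem ic_same (hω : ω ∈ DD V) (k : ℕ) {f f' : Pt} (h : SameLev (k + 1) ω f f') :
    ic k ω f * ic k ω f' = 1 := by
  obtain ⟨A, hA, hl, hf, hf'⟩ := h
  have key : ∀ g : Pt, surr ω A g → ic k ω g = sign ω A := by
    intro g hg
    unfold ic
    rw [K1.hk_succ_sub hω]
    have hsing : (HT.LF ω).filter (fun A => level ω A = k + 1 ∧ surr ω A g) = {A} := by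
      ext B
      simp only [Finset.mem_filter, Finset.mem_singleton, HT.mem_LF hω]
      constructor
      · rintro ⟨h1, h2, h3⟩
        exact (L.laminar hω).lev_inj h1 hA h3 hg (by
          rw [← L.level_eq, ← L.level_eq, h2, hl])
      · rintro rfl
        exact ⟨hA, hl, hg⟩
    rw [hsing, Finset.sum_singleton]
  rw [key f hf, key f' hf']
  rcases sign_pm hω hA with h | h <;> rw [h] <;> norm_num

open Classical in
theorem sum_cov (k : ℕ) (f f' : Pt) (g : Conf → ℝ)
    (hg : ∀ ω ∈ DD V, ∀ S, g (swapOn S ω) = g ω) :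
    ∑ ω ∈ DD V, g ω * ((ic k ω f : ℝ) * ic k ω f') =
      ∑ ω ∈ DD V, g ω * (if SameLev (k + 1) ω f f' then 1 else 0) := by
  rw [← sub_eq_zero, ← Finset.sum_sub_distrib]
  refine Finset.sum_involution (fun ω _ => swapOn (SL (k + 1) ω f) ω) ?_ ?_ ?_ ?_
  · intro ω hω
    by_cases h : SameLev (k + 1) ω f f'
    · have h' := (sameLev_swap (k + 1) (SL (k + 1) ω f) ω f f').2 h
      have e1 := ic_same hω k h
      have e2 := ic_same (swap_mem hω (cl_SL (k + 1) ω f)) k h'
      rw [if_pos h, if_pos h']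
      have e1' : (ic k ω f : ℝ) * ic k ω f' = 1 := by exact_mod_cast e1
      have e2' : (ic k (swapOn (SL (k + 1) ω f) ω) f : ℝ) * ic k (swapOn (SL (k + 1) ω f) ω) f' = 1 := by
        exact_mod_cast e2
      rw [e1', e2']
      ring
    · have h' : ¬ SameLev (k + 1) (swapOn (SL (k + 1) ω f) ω) f f' := by
        rw [sameLev_swap]; exact h
      rw [if_neg h, if_neg h', ic_swap_self hω, ic_swap_other hω k h, hg ω hω]
      push_cast
      ring
  · intro ω hω hne heq
    by_cases h : SameLev (k + 1) ω f f'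
    · apply hne
      rw [if_pos h]
      have e1' : (ic k ω f : ℝ) * ic k ω f' = 1 := by exact_mod_cast ic_same hω k h
      rw [e1']
      ring
    · apply hne
      rw [if_neg h]
      have e := ic_swap_self hω k f
      rw [heq] at e
      have e0 : ic k ω f = 0 := by omega
      rw [e0]
      simp
  · intro ω hω
    exact swap_mem hω (cl_SL (k + 1) ω f)
  · intro ω hω
    beta_reduce
    rw [SL_swap, swapOn_swapOn]

open Classical in
theorem ex_cov (k : ℕ) (f f' : Pt) (g : Conf → ℝ)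
    (hg : ∀ ω ∈ DD V, ∀ S, g (swapOn S ω) = g ω) :
    Ex V (fun ω => g ω * ((ic k ω f : ℝ) * ic k ω f')) =
      Ex V (fun ω => g ω * (if SameLev (k + 1) ω f f' then 1 else 0)) := by
  unfold Ex
  rw [sum_cov k f f' g hg]

theorem gasket_swap (δ : ℝ) (a : ℂ) (T : Temp) (k : ℕ) (S : Set Pt) (ω : Conf) :
    gasket δ a T k (swapOn S ω) = gasket δ a T k ω := by
  unfold gasket
  rw [Ok_swap]

end Vale.Agent.P155.T211Q
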