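import Mathlib

/-!
# P155, literal Q1, block SAME: fair signs at random indices
-/

namespace Vale.Agent.P155.T211Q

open MeasureTheory ProbabilityTheory Function

variable {Θ E : Type*} [MeasurableSpace Θ] [MeasurableSpace E] {P : Measure Θ}
  [IsProbabilityMeasure P]

theorem abs_pm {t : ℝ} (h : t = 1 ∨ t = -1) : |t| = 1 := by
  rcases h with rfl | rfl <;> simp

theorem pm_mul_self {t : ℝ} (h : t = 1 ∨ t = -1) : t * t = 1 := by
  rcases h with rfl | rfl <;> norm_num

/-- a measurable selection among countably many measurable functions -/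
theorem measurable_sel {ξ : ℕ → Θ → ℝ} (hξ : ∀ i, Measurable (ξ i)) {J : Θ → ℕ}
    (hJ : Measurable J) : Measurable fun x => ξ (J x) x := by
  have h1 : Measurable fun p : Θ × ℕ => ξ p.2 p.1 :=
    measurable_from_prod_countable_left fun i => hξ i
  exact h1.comp (measurable_id.prodMk hJ)

theorem integrable_of_bdd {f : Θ → ℝ} (hf : Measurable f) {C : ℝ} (h : ∀ x, |f x| ≤ C) :
    Integrable f P :=
  Integrable.of_bound hf.aestronglyMeasurable C (Filter.Eventually.of_forall h)

open Classical in
/-- **fair signs at random indices** -/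
theorem fair_pair {X : Θ → E} (hX : Measurable X) {J J' : E → ℕ} (hJ : Measurable J)
    (hJ' : Measurable J') {Y : E → ℝ} (hY : Measurable Y) {C : ℝ} (hYb : ∀ e, |Y e| ≤ C)
    {ξ : ℕ → Θ → ℝ} (hξ : ∀ i, Measurable (ξ i)) (hpm : ∀ i x, ξ i x = 1 ∨ ξ i x = -1)
    (h0 : ∀ i j, i ≠ j → ∫ x, ξ i x * ξ j x ∂P = 0)
    (hind : Indep (⨆ i, MeasurableSpace.comap (ξ i) inferInstance)
      (MeasurableSpace.comap X inferInstance) P) :
    ∫ x, Y (X x) * (ξ (J (X x)) x * ξ (J' (X x)) x) ∂P =
      ∫ x, Y (X x) * (if J (X x) = J' (X x) then 1 else 0) ∂P := by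
  have m1 : Measurable fun x => Y (X x) * (ξ (J (X x)) x * ξ (J' (X x)) x) :=
    (hY.comp hX).mul ((measurable_sel hξ (hJ.comp hX)).mul (measurable_sel hξ (hJ'.comp hX)))
  have m2 : Measurable fun x => Y (X x) * (if J (X x) = J' (X x) then (1 : ℝ) else 0) := by
    refine (hY.comp hX).mul (Measurable.ite ?_ measurable_const measurable_const)
    exact measurableSet_eq_fun (hJ.comp hX) (hJ'.comp hX)
  have i1 : Integrable (fun x => Y (X x) * (ξ (J (X x)) x * ξ (J' (X x)) x)) P := by
    refine integrable_of_bdd m1 (C := C) fun x => ?_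
    rw [abs_mul, abs_mul, abs_pm (hpm _ x), abs_pm (hpm _ x), mul_one, mul_one]
    exact hYb _
  have i2 : Integrable (fun x => Y (X x) * (if J (X x) = J' (X x) then (1 : ℝ) else 0)) P := by
    refine integrable_of_bdd m2 (C := C) fun x => ?_
    split_ifs
    · rw [mul_one]; exact hYb _
    · rw [mul_zero, abs_zero]; exact (abs_nonneg _).trans (hYb (X x))
  rw [← sub_eq_zero, ← integral_sub i1 i2]
  set D : Θ → ℝ := fun x => Y (X x) * (ξ (J (X x)) x * ξ (J' (X x)) x) -
    Y (X x) * (if J (X x) = J' (X x) then (1 : ℝ) else 0) with hD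
  set A : ℕ × ℕ → Set Θ := fun p => {x | J (X x) = p.1 ∧ J' (X x) = p.2} with hA
  have hAm : ∀ p, MeasurableSet (A p) := fun p =>
    ((hJ.comp hX) (measurableSet_singleton p.1)).inter ((hJ'.comp hX) (measurableSet_singleton p.2))
  have hAd : Pairwise (Disjoint on A) := by
    intro p q hpq
    rw [Function.onFun, Set.disjoint_left]
    rintro x ⟨h1, h2⟩ ⟨h3, h4⟩
    exact hpq (Prod.ext (h1.symm.trans h3) (h2.symm.trans h4))
  have hAu : ⋃ p, A p = Set.univ := by
    rw [Set.eq_univ_iff_forall]
    intro x
    exact Set.mem_iUnion.2 ⟨(J (X x), J' (X x)), rfl, rfl⟩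
  have hs := hasSum_integral_iUnion (f := D) (μ := P) hAm hAd
    ((i1.sub i2).integrableOn)
  rw [hAu, setIntegral_univ] at hs
  have hz : ∀ p, ∫ x in A p, D x ∂P = 0 := by
    rintro ⟨i, j⟩
    by_cases hij : i = j
    · subst hij
      rw [setIntegral_congr_fun (g := fun _ => (0 : ℝ)) (hAm (i, i)) ?_, integral_zero]
      rintro x ⟨h1, h2⟩
      have e1 : J (X x) = i := h1
      have e2 : J' (X x) = i := h2
      simp only [hD]
      rw [e1, e2, if_pos rfl, pm_mul_self (hpm i x)]
      ring
    · have e : ∫ x in A (i, j), D x ∂P =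
          ∫ x, (ξ i x * ξ j x) * ((if J (X x) = i ∧ J' (X x) = j then (1 : ℝ) else 0) * Y (X x)) ∂P := by
        rw [← integral_indicator (hAm (i, j))]
        refine integral_congr_ae (Filter.Eventually.of_forall fun x => ?_)
        by_cases hx : x ∈ A (i, j)
        · have e1 : J (X x) = i := hx.1
          have e2 : J' (X x) = j := hx.2
          simp only [Set.indicator_of_mem hx, hD]
          rw [e1, e2, if_neg hij, if_pos ⟨rfl, rfl⟩]
          ring
        · have hx' : ¬ (J (X x) = i ∧ J' (X x) = j) := hx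
          simp only [Set.indicator_of_notMem hx]
          rw [if_neg hx']
          ring
      rw [e]
      have f1 : Measurable[⨆ i, MeasurableSpace.comap (ξ i) inferInstance]
          (fun x => ξ i x * ξ j x) := by
        have a1 : ∀ i, Measurable[⨆ i, MeasurableSpace.comap (ξ i) inferInstance] (ξ i) := fun i =>
          (comap_measurable (ξ i)).mono (le_iSup (fun i => MeasurableSpace.comap (ξ i) inferInstance) i)
            le_rfl
        exact (a1 i).mul (a1 j)
      have f2' : Measurable fun e : E => (if J e = i ∧ J' e = j then (1 : ℝ) else 0) * Y e := by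
        refine (Measurable.ite ?_ measurable_const measurable_const).mul hY
        exact (hJ (measurableSet_singleton i)).inter (hJ' (measurableSet_singleton j))
      have f2 : Measurable[MeasurableSpace.comap X inferInstance]
          (fun x => (if J (X x) = i ∧ J' (X x) = j then (1 : ℝ) else 0) * Y (X x)) :=
        f2'.comp (comap_measurable X)
      have hindep : IndepFun (fun x => ξ i x * ξ j x)
          (fun x => (if J (X x) = i ∧ J' (X x) = j then (1 : ℝ) else 0) * Y (X x)) P := by
        rw [IndepFun_iff_Indep]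
        exact indep_of_indep_of_le_left (indep_of_indep_of_le_right hind f2.comap_le) f1.comap_le
      have := hindep.integral_fun_mul_eq_mul_integral
        ((hξ i).mul (hξ j)).aestronglyMeasurable (f2'.comp hX).aestronglyMeasurable
      rw [this, h0 i j hij, zero_mul]
  have h1 : HasSum (fun p => ∫ x in A p, D x ∂P) 0 := by
    simp only [hz]
    exact hasSum_zero
  exact hs.unique h1

end Vale.Agent.P155.T211Q
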