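import Vale.Agent.P155.T211Q.Bott
import Vale.Agent.P155.H878.Q1Stmt
import Vale.Agent.P155.K1.State

/-!
# P155, literal Q1, block SAME: holes, their indices and the height function of the continuum
-/

namespace Vale.Agent.P155.T211Q

open Metric TopologicalSpace Topology MeasureTheory Filter Vale.Agent.P155

/-- in terms of the bottleneck: the component of `z` in `Ω \ G` -/
theorem hole_iff {Ω : Set ℂ} (hΩ : IsOpen Ω) {G : Set ℂ} (hG : IsClosed G)
    (hne : G.Nonempty) (hfr : frontier Ω ⊆ G) {z : ℂ} (hz : z ∈ Ω) (w : ℂ) :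
    w ∈ connectedComponentIn (Ω \ G) z ↔ 0 < bott z w G := by
  constructor
  · exact bott_pos_of_comp hΩ hG hne
  · intro h
    obtain ⟨γ, hγ⟩ := joinedIn_of_bott_pos h
    have hc : IsPreconnected (Set.range γ) := isPreconnected_range γ.continuous
    have hsub : Set.range γ ⊆ Ω \ G := by
      rintro _ ⟨u, rfl⟩
      refine ⟨?_, hγ u⟩
      by_contra hu
      have hcov : Set.range γ ⊆ Ω ∪ (closure Ω)ᶜ := by
        rintro _ ⟨v, rfl⟩
        by_cases hv : γ v ∈ Ω
        · exact Or.inl hv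
        · refine Or.inr fun hv' => hγ v (hfr ?_)
          rw [frontier, hΩ.interior_eq]
          exact ⟨hv', hv⟩
      have hu' : γ u ∈ (closure Ω)ᶜ := by
        rcases hcov ⟨u, rfl⟩ with h1 | h1
        · exact absurd h1 hu
        · exact h1
      obtain ⟨y, -, hy1, hy2⟩ := hc Ω (closure Ω)ᶜ hΩ isClosed_closure.isOpen_compl hcov
        ⟨γ 0, ⟨0, rfl⟩, by rw [γ.source]; exact hz⟩ ⟨γ u, ⟨u, rfl⟩, hu'⟩
      exact hy2 (subset_closure hy1)
    have h2 := hc.subset_connectedComponentIn (x := z) ⟨0, γ.source⟩ hsub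
    exact h2 ⟨1, γ.target⟩

/-- index of the hole containing `z`, as a function of the carpet -/
noncomputable def idb (z : ℂ) (G : NonemptyCompacts ℂ) : ℕ :=
  sInf {i | 0 < bott z (denseSeq ℂ i) G}

theorem measurable_idb (z : ℂ) : @Measurable _ _ (borel (NonemptyCompacts ℂ)) _ (idb z) := by
  let _ : MeasurableSpace (NonemptyCompacts ℂ) := borel _
  have : BorelSpace (NonemptyCompacts ℂ) := ⟨rfl⟩
  have hp : ∀ i, MeasurableSet {G : NonemptyCompacts ℂ | 0 < bott z (denseSeq ℂ i) G} := fun i =>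
    (isOpen_lt continuous_const (continuous_bott z _)).measurableSet
  refine measurable_to_countable' fun n => ?_
  have hset : idb z ⁻¹' {n} =
      ({G : NonemptyCompacts ℂ | 0 < bott z (denseSeq ℂ n) G} ∩
        ⋂ j ∈ Set.Iio n, {G : NonemptyCompacts ℂ | 0 < bott z (denseSeq ℂ j) G}ᶜ) ∪
      (if n = 0 then ⋂ j, {G : NonemptyCompacts ℂ | 0 < bott z (denseSeq ℂ j) G}ᶜ else ∅) := by
    ext G
    simp only [Set.mem_preimage, Set.mem_singleton_iff, Set.mem_union, Set.mem_inter_iff,
      Set.mem_iInter, Set.mem_compl_iff, Set.mem_Iio, idb]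
    constructor
    · intro h
      by_cases he : ∃ i, 0 < bott z (denseSeq ℂ i) G
      · left
        have h1 : sInf {i | 0 < bott z (denseSeq ℂ i) (G : Set ℂ)} ∈
            {i | 0 < bott z (denseSeq ℂ i) (G : Set ℂ)} := Nat.sInf_mem he
        rw [h] at h1
        refine ⟨h1, fun j hj hj' => ?_⟩
        have h2 : sInf {i | 0 < bott z (denseSeq ℂ i) (G : Set ℂ)} ≤ j := Nat.sInf_le hj'
        omega
      · right
        push Not at he
        have h0 : {i | 0 < bott z (denseSeq ℂ i) (G : Set ℂ)} = ∅ := by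
          ext i
          simp only [Set.mem_ofPred_eq, Set.mem_empty_iff_false, iff_false, not_lt]
          exact he i
        rw [h0, Nat.sInf_empty] at h
        rw [if_pos h.symm]
        simp only [Set.mem_iInter]
        intro j hj
        exact absurd (he j) (not_le.2 hj)
    · rintro (⟨h1, h2⟩ | h)
      · refine le_antisymm (Nat.sInf_le h1) ?_
        by_contra hlt
        push Not at hlt
        have hm : sInf {i | 0 < bott z (denseSeq ℂ i) (G : Set ℂ)} ∈
            {i | 0 < bott z (denseSeq ℂ i) (G : Set ℂ)} := Nat.sInf_mem ⟨n, h1⟩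
        exact h2 _ hlt hm
      · split_ifs at h with hn
        · subst hn
          have h0 : {i | 0 < bott z (denseSeq ℂ i) (G : Set ℂ)} = ∅ := by
            ext i
            simp only [Set.mem_ofPred_eq, Set.mem_empty_iff_false, iff_false]
            exact (Set.mem_iInter.1 h i)
          rw [h0, Nat.sInf_empty]
        · exact absurd h (Set.notMem_empty _)
  rw [hset]
  refine ((hp n).inter (MeasurableSet.biInter (Set.to_countable _) fun j _ => (hp j).compl)).union ?_
  split_ifs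
  · exact MeasurableSet.iInter fun j => (hp j).compl
  · exact MeasurableSet.empty

theorem idb_eq {Ω : Set ℂ} (hΩ : IsOpen Ω) {G : NonemptyCompacts ℂ} (hfr : frontier Ω ⊆ G) {z : ℂ}
    (hz : z ∈ Ω) : idb z G = Q1.idx (connectedComponentIn (Ω \ G) z) := by
  unfold idb Q1.idx
  congr 1
  ext i
  exact (hole_iff hΩ G.isCompact.isClosed G.nonempty hfr hz _).symm

/-- points off `G` whose holes have the same index lie in the same hole -/
theorem bott_pos_of_idb {Ω : Set ℂ} (hΩ : IsOpen Ω) {G : NonemptyCompacts ℂ}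
    (hfr : frontier Ω ⊆ G) {z z' : ℂ} (hz : z ∈ Ω) (hz' : z' ∈ Ω) (hzG : z ∉ (G : Set ℂ))
    (hzG' : z' ∉ (G : Set ℂ)) (h : idb z G = idb z' G) : 0 < bott z z' G := by
  have hU : IsOpen (Ω \ (G : Set ℂ)) := hΩ.sdiff G.isCompact.isClosed
  have key : ∀ y, y ∈ Ω → y ∉ (G : Set ℂ) →
      denseSeq ℂ (idb y G) ∈ connectedComponentIn (Ω \ (G : Set ℂ)) y := by
    intro y hy hyG
    have h1 : IsOpen (connectedComponentIn (Ω \ (G : Set ℂ)) y) := hU.connectedComponentIn
    obtain ⟨x, hx, i, hi⟩ := (denseRange_denseSeq ℂ).exists_mem_open h1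
      ⟨y, mem_connectedComponentIn ⟨hy, hyG⟩⟩ |> fun ⟨i, hi⟩ => (⟨_, hi, i, rfl⟩ :
        ∃ x, x ∈ connectedComponentIn (Ω \ (G : Set ℂ)) y ∧ ∃ i, denseSeq ℂ i = x)
    rw [hole_iff hΩ G.isCompact.isClosed G.nonempty hfr hy]
    have hmem : i ∈ {i | 0 < bott y (denseSeq ℂ i) (G : Set ℂ)} := by
      rw [← hi, hole_iff hΩ G.isCompact.isClosed G.nonempty hfr hy] at hx
      exact hx
    exact Nat.sInf_mem ⟨i, hmem⟩
  have h1 := key z hz hzG
  have h2 := key z' hz' hzG'
  rw [← h] at h2
  have e1 := connectedComponentIn_eq h1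
  have e2 := connectedComponentIn_eq h2
  apply bott_pos_of_comp hΩ G.isCompact.isClosed G.nonempty
  rw [e1, ← e2]
  exact mem_connectedComponentIn ⟨hz', hzG'⟩

/-- one level of the height function -/
theorem measurable_level {U : Set ℂ} (hU : IsOpen U) (g : ℕ → ℝ) [dec : DecidablePred (· ∈ U)] :
    Measurable (fun z => if z ∈ U then g (Q1.idx (connectedComponentIn U z)) else 0) := by
  have h1 : ContinuousOn (fun z => g (Q1.idx (connectedComponentIn U z))) U := by
    intro z hz
    refine ContinuousAt.continuousWithinAt ?_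
    have h2 : (fun z => g (Q1.idx (connectedComponentIn U z))) =ᶠ[𝓝 z]
        fun _ => g (Q1.idx (connectedComponentIn U z)) := by
      filter_upwards [hU.connectedComponentIn.mem_nhds (mem_connectedComponentIn hz)] with w hw
      rw [connectedComponentIn_eq hw]
    exact (continuousAt_const (y := g (Q1.idx (connectedComponentIn U z)))).congr h2.symm
  exact ContinuousOn.measurable_piecewise h1
    (continuousOn_const (c := (0 : ℝ)) (s := Uᶜ)) hU.measurableSet

theorem measurable_height {Ω : Set ℂ} (hΩ : IsOpen Ω) (G : ℕ → NonemptyCompacts ℂ)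
    (ξ : ℕ → ℕ → ℝ) (k : ℕ) : Measurable (Q1.height Ω G ξ k) := by
  unfold Q1.height
  refine Finset.measurable_sum _ fun j _ => ?_
  have h := measurable_level (dec := fun _ => Classical.propDecidable _)
    (hΩ.sdiff (G j).isCompact.isClosed) (ξ j)
  convert h

theorem abs_height_le {Ω : Set ℂ} (G : ℕ → NonemptyCompacts ℂ)
    {ξ : ℕ → ℕ → ℝ} (hpm : ∀ k i, ξ k i = 1 ∨ ξ k i = -1) (k : ℕ) (z : ℂ) :
    |Q1.height Ω G ξ k z| ≤ k := by
  classical
  unfold Q1.height
  refine (Finset.abs_sum_le_sum_abs _ _).trans ?_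
  have h1 : ∀ j ∈ Finset.Icc 1 k, |if z ∈ Ω \ (G j : Set ℂ) then
      ξ j (Q1.idx (connectedComponentIn (Ω \ G j) z)) else 0| ≤ 1 := by
    intro j _
    split_ifs
    · rcases hpm j (Q1.idx (connectedComponentIn (Ω \ G j) z)) with h | h <;> rw [h] <;> simp
    · simp
  refine (Finset.sum_le_sum h1).trans ?_
  simp

open Classical in
theorem height_succ (Ω : Set ℂ) (G : ℕ → NonemptyCompacts ℂ) (ξ : ℕ → ℕ → ℝ) (k : ℕ) (z : ℂ) :
    Q1.height Ω G ξ (k + 1) z = Q1.height Ω G ξ k z +
      if z ∈ Ω \ G (k + 1) then ξ (k + 1) (Q1.idx (connectedComponentIn (Ω \ G (k + 1)) z)) else 0 := by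
  unfold Q1.height
  rw [Finset.sum_Icc_succ_top (by omega)]

/-- the increment of the smoothed height near a point off the carpet -/
theorem height_inc {Ω : Set ℂ} (hΩ : IsOpen Ω) (G : ℕ → NonemptyCompacts ℂ)
    {ξ : ℕ → ℕ → ℝ} (hpm : ∀ k i, ξ k i = 1 ∨ ξ k i = -1) (k : ℕ) {z : ℂ} {ρ : ℝ} (hρ : 0 < ρ)
    (hb : ball z ρ ⊆ Ω \ (G (k + 1) : Set ℂ)) {φ : ℂ → ℝ} (hφ : IsTest (ball z ρ) φ) :
    (∫ w, Q1.height Ω G ξ (k + 1) w * φ w) - ∫ w, Q1.height Ω G ξ k w * φ w =
      ξ (k + 1) (Q1.idx (connectedComponentIn (Ω \ G (k + 1)) z)) * ∫ w, φ w := by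
  have hi : ∀ l, Integrable (fun w => Q1.height Ω G ξ l w * φ w) := fun l =>
    (K1.test_integrable hφ).bdd_mul (measurable_height hΩ G ξ l).aestronglyMeasurable
      (Eventually.of_forall fun w => by
        rw [Real.norm_eq_abs]; exact abs_height_le G hpm l w)
  rw [← integral_sub (hi _) (hi _), ← integral_const_mul]
  refine integral_congr_ae (Eventually.of_forall fun w => ?_)
  beta_reduce
  by_cases hw : w ∈ ball z ρ
  · rw [height_succ, if_pos (hb hw)]
    have hc : w ∈ connectedComponentIn (Ω \ (G (k + 1) : Set ℂ)) z :=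
      (convex_ball z ρ).isPreconnected.subset_connectedComponentIn (mem_ball_self hρ) hb hw
    rw [← connectedComponentIn_eq hc]
    ring
  · rw [K1.test_zero_off hφ hw]
    ring

end Vale.Agent.P155.T211Q
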