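import Vale.Agent.P155.T211Q.LatSame
import Vale.Agent.P155.T211Q.Hole
import Vale.Agent.P155.T211Q.Fair

/-!
# P155, literal Q1, block SAME: the limit side
-/

namespace Vale.Agent.P155.T211Q

open Metric TopologicalSpace Topology MeasureTheory Filter Vale.Agent.P155 ProbabilityTheory

/-- carpets with independent fair signs on the holes (the data in `IsNestedCLE4`) -/
structure FairCarpets {Θ : Type} [MeasurableSpace Θ] (P : Measure Θ) (Ω : Set ℂ)
    (G : ℕ → Θ → NonemptyCompacts ℂ) (ξ : ℕ → ℕ → Θ → ℝ) : Prop where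
  prob : IsProbabilityMeasure P
  mξ : ∀ k i, Measurable (ξ k i)
  pm : ∀ k i x, ξ k i x = 1 ∨ ξ k i x = -1
  half : ∀ k i, P {x | ξ k i x = 1} = 1 / 2
  iind : iIndepFun (fun p : ℕ × ℕ => ξ p.1 p.2) P
  mG : ∀ k, @Measurable _ _ _ (borel (NonemptyCompacts ℂ)) (G k)
  ind : Indep (⨆ p : ℕ × ℕ, MeasurableSpace.comap (ξ p.1 p.2) inferInstance)
      (⨆ k : ℕ, MeasurableSpace.comap (G k) (borel (NonemptyCompacts ℂ))) P
  sc : IsSignedCarpets P Ω G
    (fun k x φ => ∫ z, Q1.height Ω (fun j => G j x) (fun j i => ξ j i x) k z * φ z)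

variable {Θ : Type} [MeasurableSpace Θ] {P : Measure Θ} {Ω : Set ℂ}
    {G : ℕ → Θ → NonemptyCompacts ℂ} {ξ : ℕ → ℕ → Θ → ℝ}

theorem FairCarpets.int_zero (h : FairCarpets P Ω G ξ) (k i : ℕ) : ∫ x, ξ k i x ∂P = 0 := by
  have := h.prob
  have hm : MeasurableSet {x | ξ k i x = 1} := measurableSet_eq_fun (h.mξ k i) measurable_const
  have e : ∀ x, ξ k i x = 2 * Set.indicator {x | ξ k i x = 1} (fun _ => (1 : ℝ)) x - 1 := by
    intro x
    rcases h.pm k i x with hx | hx
    · rw [Set.indicator_of_mem (show x ∈ {x | ξ k i x = 1} from hx), hx]; norm_num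
    · rw [Set.indicator_of_notMem (show x ∉ {x | ξ k i x = 1} from by
        intro h'
        have h'' : ξ k i x = 1 := h'
        rw [hx] at h''
        norm_num at h''), hx]
      norm_num
  have hi : Integrable (Set.indicator {x | ξ k i x = 1} (fun _ => (1 : ℝ))) P :=
    (integrable_const (1 : ℝ)).indicator hm
  calc ∫ x, ξ k i x ∂P = ∫ x, (2 * Set.indicator {x | ξ k i x = 1} (fun _ => (1 : ℝ)) x - 1) ∂P :=
        integral_congr_ae (Eventually.of_forall e)
    _ = 0 := by
        rw [integral_sub (hi.const_mul 2) (integrable_const _), integral_const_mul,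
          integral_indicator_const _ hm, measureReal_def, h.half]
        simp

theorem FairCarpets.cov_zero (h : FairCarpets P Ω G ξ) (k : ℕ) {i j : ℕ} (hij : i ≠ j) :
    ∫ x, ξ k i x * ξ k j x ∂P = 0 := by
  have h1 : IndepFun (ξ k i) (ξ k j) P :=
    h.iind.indepFun (i := (k, i)) (j := (k, j)) (by simpa using hij)
  rw [h1.integral_fun_mul_eq_mul_integral (h.mξ k i).aestronglyMeasurable
    (h.mξ k j).aestronglyMeasurable, h.int_zero, zero_mul]

theorem FairCarpets.indep (h : FairCarpets P Ω G ξ) (k : ℕ) :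
    Indep (⨆ i, MeasurableSpace.comap (ξ k i) inferInstance)
      (MeasurableSpace.comap (G k) (borel (NonemptyCompacts ℂ))) P := by
  refine indep_of_indep_of_le_left (indep_of_indep_of_le_right h.ind ?_) ?_
  · exact le_iSup (fun k => MeasurableSpace.comap (G k) (borel (NonemptyCompacts ℂ))) k
  · exact iSup_le fun i =>
      le_iSup (fun p : ℕ × ℕ => MeasurableSpace.comap (ξ p.1 p.2) inferInstance) (k, i)

theorem FairCarpets.frontier_sub (h : FairCarpets P Ω G ξ) :
    ∀ᵐ x ∂P, ∀ k, frontier Ω ⊆ (G k x : Set ℂ) := by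
  filter_upwards [h.sc.zero, h.sc.mono] with x h1 h2 k
  rw [← h1.1]
  induction k with
  | zero => exact le_rfl
  | succ k ih => exact ih.trans (h2 k).1

/-- limit side: the integral of `Fw` -/
theorem FairCarpets.int_Fw (h : FairCarpets P Ω G ξ) (hΩ : IsOpen Ω) (k : ℕ)
    {r s : ℝ} (hr : 0 < r) (hs : 0 < s) {z z' : ℂ}
    (hz : closedBall z (s / 2) ⊆ Ω) (hz' : closedBall z' (s / 2) ⊆ Ω)
    {χ : Fin 2 → ℂ → ℝ} (h0 : IsTest (ball z (s / 2)) (χ 0)) (h0' : ∫ w, χ 0 w = 1)
    (h1 : IsTest (ball z' (s / 2)) (χ 1)) (h1' : ∫ w, χ 1 w = 1) :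
    ∫ x, Fw k r s z z' (fun l => G l x, fun l i =>
      ∫ w, Q1.height Ω (fun j => G j x) (fun j i => ξ j i x) l w * χ i w) ∂P ≤
      P.real {x | 0 < bott z z' (G (k + 1) x) ∧ bott z z' (G (k + 1) x) < 2 * r} := by
  classical
  have := h.prob
  let _ : MeasurableSpace (NonemptyCompacts ℂ) := borel _
  have : BorelSpace (NonemptyCompacts ℂ) := ⟨rfl⟩
  have e1 : ∫ x, Fw k r s z z' (fun l => G l x, fun l i =>
      ∫ w, Q1.height Ω (fun j => G j x) (fun j i => ξ j i x) l w * χ i w) ∂P =
      ∫ x, Yw r s z z' (G (k + 1) x) * (ξ (k + 1) (idb z (G (k + 1) x)) x *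
        ξ (k + 1) (idb z' (G (k + 1) x)) x) ∂P := by
    refine integral_congr_ae ?_
    filter_upwards [h.frontier_sub] with x hx
    unfold Fw
    simp only [Fin.val_last, Fin.val_castSucc]
    by_cases hY : Yw r s z z' (G (k + 1) x) = 0
    · rw [hY, zero_mul, zero_mul]
    · obtain ⟨d1, d2, -⟩ := Yw_ne hr hs hY
      have key : ∀ {y : ℂ} {φ : ℂ → ℝ}, closedBall y (s / 2) ⊆ Ω →
          s / 2 < infDist y (G (k + 1) x : Set ℂ) → IsTest (ball y (s / 2)) φ → ∫ w, φ w = 1 →
          (∫ w, Q1.height Ω (fun j => G j x) (fun j i => ξ j i x) (k + 1) w * φ w) -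
            (∫ w, Q1.height Ω (fun j => G j x) (fun j i => ξ j i x) k w * φ w) =
            ξ (k + 1) (idb y (G (k + 1) x)) x := by
        intro y φ hy hd hφ hφ1
        have hsub : ball y (s / 2) ⊆ Ω \ (G (k + 1) x : Set ℂ) := by
          intro w hw
          refine ⟨hy (ball_subset_closedBall hw), fun hw' => ?_⟩
          have h4 := infDist_le_dist_of_mem (x := y) hw'
          rw [mem_ball, dist_comm] at hw
          linarith
        rw [height_inc hΩ (fun j => G j x) (ξ := fun j i => ξ j i x) (fun k i => h.pm k i x) k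
          (by positivity) hsub hφ, hφ1, mul_one, idb_eq hΩ (hx (k + 1))
          (hy (mem_closedBall_self (by positivity)))]
      rw [key hz d1 h0 h0', key hz' d2 h1 h1', c11_pm (h.pm _ _ x), c11_pm (h.pm _ _ x)]
  rw [e1]
  have e2 := fair_pair (P := P) (X := G (k + 1)) (h.mG (k + 1)) (J := idb z) (J' := idb z')
    (measurable_idb z) (measurable_idb z') (Y := Yw r s z z')
    (continuous_Yw r s z z').measurable (C := 1) (abs_Yw_le r s z z') (ξ := ξ (k + 1))
    (h.mξ (k + 1)) (fun i x => h.pm (k + 1) i x) (fun i j hij => h.cov_zero (k + 1) hij)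
    (h.indep (k + 1))
  rw [e2]
  set A : Set Θ := {x | 0 < bott z z' (G (k + 1) x) ∧ bott z z' (G (k + 1) x) < 2 * r} with hA
  have hAm : MeasurableSet A := by
    have hb : Measurable fun x => bott z z' (G (k + 1) x) :=
      (continuous_bott z z').measurable.comp (h.mG (k + 1))
    exact (measurableSet_lt measurable_const hb).inter (measurableSet_lt hb measurable_const)
  have e3 : P.real A = ∫ x, A.indicator (fun _ => (1 : ℝ)) x ∂P := by
    rw [integral_indicator_const _ hAm, smul_eq_mul, mul_one]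
  rw [e3]
  refine integral_mono_ae ?_ ((integrable_const (1 : ℝ)).indicator hAm) ?_
  · have m2 : Measurable fun x => Yw r s z z' (G (k + 1) x) *
        (if idb z (G (k + 1) x) = idb z' (G (k + 1) x) then (1 : ℝ) else 0) := by
      refine ((continuous_Yw r s z z').measurable.comp (h.mG (k + 1))).mul
        (Measurable.ite ?_ measurable_const measurable_const)
      exact measurableSet_eq_fun ((measurable_idb z).comp (h.mG (k + 1)))
        ((measurable_idb z').comp (h.mG (k + 1)))
    refine integrable_of_bdd m2 (C := 1) fun x => ?_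
    split_ifs
    · rw [mul_one]; exact abs_Yw_le _ _ _ _ _
    · rw [mul_zero, abs_zero]; exact zero_le_one
  · filter_upwards [h.frontier_sub] with x hx
    beta_reduce
    have hI : (0 : ℝ) ≤ A.indicator (fun _ => (1 : ℝ)) x :=
      Set.indicator_nonneg (fun _ _ => zero_le_one) x
    by_cases hY : Yw r s z z' (G (k + 1) x) = 0
    · rw [hY, zero_mul]; exact hI
    · split_ifs with hid
      · obtain ⟨d1, d2, d3⟩ := Yw_ne hr hs hY
        have hzG : z ∉ (G (k + 1) x : Set ℂ) := fun hm => by
          rw [infDist_zero_of_mem hm] at d1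
          linarith
        have hzG' : z' ∉ (G (k + 1) x : Set ℂ) := fun hm => by
          rw [infDist_zero_of_mem hm] at d2
          linarith
        have hp := bott_pos_of_idb hΩ (hx (k + 1)) (hz (mem_closedBall_self (by positivity)))
          (hz' (mem_closedBall_self (by positivity))) hzG hzG' hid
        rw [Set.indicator_of_mem (show x ∈ A from ⟨hp, d3⟩), mul_one]
        exact Yw_le _ _ _ _ _
      · rw [mul_zero]; exact hI

/-- the probability of a small positive bottleneck is small -/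
theorem exists_small [IsProbabilityMeasure P] {b : Θ → ℝ} (hb : Measurable b) {ε : ℝ}
    (hε : 0 < ε) : ∃ r > 0, P.real {x | 0 < b x ∧ b x < 2 * r} < ε := by
  set A : ℕ → Set Θ := fun n => {x | 0 < b x ∧ b x < 2 * (1 / ((n : ℝ) + 1))} with hA
  have hAm : ∀ n, MeasurableSet (A n) := fun n =>
    (measurableSet_lt measurable_const hb).inter (measurableSet_lt hb measurable_const)
  have hanti : Antitone A := by
    intro m n hmn x hx
    refine ⟨hx.1, hx.2.trans_le ?_⟩
    have : (1 : ℝ) / ((n : ℝ) + 1) ≤ 1 / ((m : ℝ) + 1) := by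
      apply one_div_le_one_div_of_le (by positivity)
      have : (m : ℝ) ≤ n := by exact_mod_cast hmn
      linarith
    linarith
  have hI : ⋂ n, A n = ∅ := by
    rw [Set.eq_empty_iff_forall_notMem]
    intro x hx
    have h0 : 0 < b x := (Set.mem_iInter.1 hx 0).1
    obtain ⟨n, hn⟩ := exists_nat_one_div_lt (half_pos h0)
    have := (Set.mem_iInter.1 hx n).2
    linarith
  have ht := tendsto_measure_iInter_atTop (μ := P) (fun n => (hAm n).nullMeasurableSet) hanti
    ⟨0, measure_ne_top P _⟩
  rw [hI, measure_empty] at ht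
  have ht' : Tendsto (fun n => P.real (A n)) atTop (𝓝 0) := by
    have := (ENNReal.tendsto_toReal ENNReal.zero_ne_top).comp ht
    rw [ENNReal.toReal_zero] at this
    exact this
  obtain ⟨n, hn⟩ := (ht'.eventually (gt_mem_nhds hε)).exists
  exact ⟨1 / ((n : ℝ) + 1), by positivity, hn⟩

end Vale.Agent.P155.T211Q
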