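import Vale.Agent.P155.FinalStmt

/-!
# P155, literal Q1: the bottleneck between two points in the complement of a compact set
-/

namespace Vale.Agent.P155.T211Q

open Metric TopologicalSpace Topology

/-- The bottleneck: the largest distance from `G` that a path from `z` to `z'` can keep. -/
noncomputable def bott (z z' : ℂ) (G : Set ℂ) : ℝ :=
  sSup {t | ∃ γ : C(unitInterval, ℂ), γ 0 = z ∧ γ 1 = z' ∧ ∀ u, t ≤ infDist (γ u) G}

theorem bott_zero_mem (z z' : ℂ) (G : Set ℂ) :
    (0 : ℝ) ∈ {t | ∃ γ : C(unitInterval, ℂ), γ 0 = z ∧ γ 1 = z' ∧ ∀ u, t ≤ infDist (γ u) G} := by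
  refine ⟨⟨fun u => (1 - (u : ℝ)) • z + (u : ℝ) • z', by fun_prop⟩, by simp, by simp,
    fun u => infDist_nonneg⟩

theorem bott_bdd (z z' : ℂ) (G : Set ℂ) :
    BddAbove {t | ∃ γ : C(unitInterval, ℂ), γ 0 = z ∧ γ 1 = z' ∧ ∀ u, t ≤ infDist (γ u) G} := by
  refine ⟨infDist z G, ?_⟩
  rintro t ⟨γ, h0, -, h⟩
  have := h 0
  rwa [h0] at this

theorem bott_nonneg (z z' : ℂ) (G : Set ℂ) : 0 ≤ bott z z' G :=
  le_csSup (bott_bdd z z' G) (bott_zero_mem z z' G)

theorem le_bott {z z' : ℂ} {G : Set ℂ} {t : ℝ} (γ : C(unitInterval, ℂ)) (h0 : γ 0 = z)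
    (h1 : γ 1 = z') (h : ∀ u, t ≤ infDist (γ u) G) : t ≤ bott z z' G :=
  le_csSup (bott_bdd z z' G) ⟨γ, h0, h1, h⟩

theorem bott_le_infDist (z z' : ℂ) (G : Set ℂ) : bott z z' G ≤ infDist z G := by
  refine csSup_le ⟨0, bott_zero_mem z z' G⟩ ?_
  rintro t ⟨γ, h0, -, h⟩
  have := h 0
  rwa [h0] at this

theorem bott_le_infDist' (z z' : ℂ) (G : Set ℂ) : bott z z' G ≤ infDist z' G := by
  refine csSup_le ⟨0, bott_zero_mem z z' G⟩ ?_
  rintro t ⟨γ, -, h1, h⟩
  have := h 1
  rwa [h1] at this

theorem exists_path_of_lt {z z' : ℂ} {G : Set ℂ} {t : ℝ} (h : t < bott z z' G) :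
    ∃ γ : C(unitInterval, ℂ), γ 0 = z ∧ γ 1 = z' ∧ ∀ u, t < infDist (γ u) G := by
  obtain ⟨s, ⟨γ, h0, h1, h2⟩, hs⟩ := exists_lt_of_lt_csSup ⟨0, bott_zero_mem z z' G⟩ h
  exact ⟨γ, h0, h1, fun u => hs.trans_le (h2 u)⟩

theorem bott_lip (z z' : ℂ) (G G' : NonemptyCompacts ℂ) :
    bott z z' G ≤ bott z z' G' + dist G G' := by
  refine csSup_le ⟨0, bott_zero_mem z z' G⟩ ?_
  rintro t ⟨γ, h0, h1, h⟩
  have key : t - dist G G' ≤ bott z z' G' := by
    refine le_bott γ h0 h1 fun u => ?_
    have hfin : hausdorffEDist (G' : Set ℂ) (G : Set ℂ) ≠ ⊤ :=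
      hausdorffEDist_ne_top_of_nonempty_of_bounded G'.nonempty G.nonempty
        G'.isCompact.isBounded G.isCompact.isBounded
    have h2 := infDist_le_infDist_add_hausdorffDist (x := γ u) hfin
    have h3 : dist G G' = hausdorffDist (G' : Set ℂ) (G : Set ℂ) := by
      rw [NonemptyCompacts.dist_eq, hausdorffDist_comm]
    have := h u
    linarith
  linarith

theorem continuous_bott (z z' : ℂ) : Continuous fun G : NonemptyCompacts ℂ => bott z z' G := by
  have : LipschitzWith 1 fun G : NonemptyCompacts ℂ => bott z z' G := by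
    refine LipschitzWith.of_dist_le_mul fun G G' => ?_
    rw [NNReal.coe_one, one_mul, Real.dist_eq, abs_sub_le_iff]
    constructor
    · linarith [bott_lip z z' G G']
    · have := bott_lip z z' G' G
      rw [dist_comm] at this
      linarith
  exact this.continuous

theorem continuous_infDist (z : ℂ) : Continuous fun G : NonemptyCompacts ℂ => infDist z G := by
  have : LipschitzWith 1 fun G : NonemptyCompacts ℂ => infDist z (G : Set ℂ) := by
    have key : ∀ G G' : NonemptyCompacts ℂ, infDist z (G : Set ℂ) ≤ infDist z G' + dist G G' := by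
      intro G G'
      have hfin : hausdorffEDist (G' : Set ℂ) (G : Set ℂ) ≠ ⊤ :=
        hausdorffEDist_ne_top_of_nonempty_of_bounded G'.nonempty G.nonempty
          G'.isCompact.isBounded G.isCompact.isBounded
      have h2 := infDist_le_infDist_add_hausdorffDist (x := z) hfin
      rw [NonemptyCompacts.dist_eq, hausdorffDist_comm]
      linarith
    refine LipschitzWith.of_dist_le_mul fun G G' => ?_
    rw [NNReal.coe_one, one_mul, Real.dist_eq, abs_sub_le_iff]
    constructor
    · linarith [key G G']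
    · have := key G' G
      rw [dist_comm] at this
      linarith
  exact this.continuous

/-- points joined in the complement of `G` have a positive bottleneck -/
theorem bott_pos {z z' : ℂ} {G : Set ℂ} (hG : IsClosed G) (hne : G.Nonempty)
    (h : JoinedIn Gᶜ z z') : 0 < bott z z' G := by
  obtain ⟨γ, hγ⟩ := h
  obtain ⟨u0, -, hu0⟩ := (isCompact_univ : IsCompact (Set.univ : Set unitInterval)).exists_isMinOn
    ⟨0, trivial⟩ (f := fun u => infDist (γ u) G)
    ((continuous_infDist_pt G).comp γ.continuous).continuousOn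
  have hpos : 0 < infDist (γ u0) G := (hG.notMem_iff_infDist_pos hne).1 (hγ u0)
  refine hpos.trans_le (le_bott γ.toContinuousMap γ.source γ.target fun u => ?_)
  exact hu0 (Set.mem_univ u)

theorem joinedIn_of_bott_pos {z z' : ℂ} {G : Set ℂ} (h : 0 < bott z z' G) :
    JoinedIn Gᶜ z z' := by
  obtain ⟨γ, h0, h1, h2⟩ := exists_path_of_lt h
  refine ⟨⟨γ, h0, h1⟩, fun u hu => ?_⟩
  have h3 := h2 u
  have h4 : infDist (γ u) G = 0 := infDist_zero_of_mem hu
  linarith

/-- two points in the same component of `Ω \ G` have a positive bottleneck -/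
theorem bott_pos_of_comp {Ω : Set ℂ} (hΩ : IsOpen Ω) {G : Set ℂ} (hG : IsClosed G)
    (hne : G.Nonempty) {z z' : ℂ} (h : z' ∈ connectedComponentIn (Ω \ G) z) :
    0 < bott z z' G := by
  have hz : z ∈ Ω \ G := by
    by_contra hz
    rw [connectedComponentIn_eq_empty hz] at h
    exact h
  have ho : IsOpen (connectedComponentIn (Ω \ G) z) := (hΩ.sdiff hG).connectedComponentIn
  have hc : IsConnected (connectedComponentIn (Ω \ G) z) := isConnected_connectedComponentIn_iff.2 hz
  have hp : IsPathConnected (connectedComponentIn (Ω \ G) z) := (ho.isConnected_iff_isPathConnected).1 hc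
  exact bott_pos hG hne ((hp.joinedIn z (mem_connectedComponentIn hz) z' h).mono fun w hw =>
    (connectedComponentIn_subset _ _ hw).2)

end Vale.Agent.P155.T211Q
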