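import Vale.Agent.P155.T211Q.SignCov
import Vale.Agent.P155.T211Q.Bott
import Vale.Agent.P155.K1.Main
import Mathlib.Analysis.Calculus.BumpFunction.FiniteDimension
import Mathlib.Analysis.Calculus.BumpFunction.Normed

/-!
# P155, literal Q1, block SAME: the test function of the gaskets and heights, lattice side
-/

namespace Vale.Agent.P155.T211Q

open Metric TopologicalSpace Topology MeasureTheory Filter Vale.Agent.P155

/-- clamp to `[0, 1]` -/
noncomputable def c01 (x : ℝ) : ℝ := max 0 (min 1 x)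

/-- clamp to `[-1, 1]` -/
noncomputable def c11 (x : ℝ) : ℝ := max (-1) (min 1 x)

theorem continuous_c01 : Continuous c01 := by unfold c01; fun_prop
theorem continuous_c11 : Continuous c11 := by unfold c11; fun_prop

theorem c01_nonneg (x : ℝ) : 0 ≤ c01 x := le_max_left _ _
theorem c01_le (x : ℝ) : c01 x ≤ 1 := max_le zero_le_one (min_le_left _ _)

theorem c01_one {x : ℝ} (h : 1 ≤ x) : c01 x = 1 := by
  unfold c01
  rw [min_eq_left h, max_eq_right zero_le_one]

theorem c01_zero {x : ℝ} (h : x ≤ 0) : c01 x = 0 := by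
  unfold c01
  rw [min_eq_right (h.trans zero_le_one), max_eq_left h]

theorem abs_c11_le (x : ℝ) : |c11 x| ≤ 1 := by
  unfold c11
  rw [abs_le]
  exact ⟨le_max_left _ _, max_le (by norm_num) (min_le_left _ _)⟩

theorem c11_pm {x : ℝ} (h : x = 1 ∨ x = -1) : c11 x = x := by
  unfold c11
  rcases h with rfl | rfl <;> norm_num

/-- the weight: `1` if `z, z'` are at distance `≥ s` from `G` and the bottleneck is `≤ r`;
`0` if one of the distances is `≤ s / 2` or the bottleneck is `≥ 2 r` -/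
noncomputable def Yw (r s : ℝ) (z z' : ℂ) (G : NonemptyCompacts ℂ) : ℝ :=
  c01 (2 - bott z z' G / r) * (c01 (2 * infDist z G / s - 1) * c01 (2 * infDist z' G / s - 1))

theorem continuous_Yw (r s : ℝ) (z z' : ℂ) : Continuous (Yw r s z z') := by
  unfold Yw
  refine (continuous_c01.comp ?_).mul ((continuous_c01.comp ?_).mul (continuous_c01.comp ?_))
  · exact continuous_const.sub ((continuous_bott z z').div_const r)
  · exact ((continuous_const.mul (continuous_infDist z)).div_const s).sub continuous_const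
  · exact ((continuous_const.mul (continuous_infDist z')).div_const s).sub continuous_const

theorem Yw_nonneg (r s : ℝ) (z z' : ℂ) (G : NonemptyCompacts ℂ) : 0 ≤ Yw r s z z' G :=
  mul_nonneg (c01_nonneg _) (mul_nonneg (c01_nonneg _) (c01_nonneg _))

theorem Yw_le (r s : ℝ) (z z' : ℂ) (G : NonemptyCompacts ℂ) : Yw r s z z' G ≤ 1 :=
  mul_le_one₀ (c01_le _) (mul_nonneg (c01_nonneg _) (c01_nonneg _))
    (mul_le_one₀ (c01_le _) (c01_nonneg _) (c01_le _))

theorem abs_Yw_le (r s : ℝ) (z z' : ℂ) (G : NonemptyCompacts ℂ) : |Yw r s z z' G| ≤ 1 := by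
  rw [abs_of_nonneg (Yw_nonneg _ _ _ _ _)]
  exact Yw_le _ _ _ _ _

theorem Yw_one {r s : ℝ} (hr : 0 < r) (hs : 0 < s) {z z' : ℂ} {G : NonemptyCompacts ℂ}
    (h1 : s ≤ infDist z G) (h2 : s ≤ infDist z' G) (h3 : bott z z' G ≤ r) :
    Yw r s z z' G = 1 := by
  unfold Yw
  rw [c01_one, c01_one, c01_one]
  · norm_num
  · have : 1 ≤ infDist z' G / s := (one_le_div hs).2 h2
    rw [mul_div_assoc]; linarith
  · have : 1 ≤ infDist z G / s := (one_le_div hs).2 h1
    rw [mul_div_assoc]; linarith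
  · have : bott z z' G / r ≤ 1 := (div_le_one hr).2 h3
    linarith

theorem Yw_ne {r s : ℝ} (hr : 0 < r) (hs : 0 < s) {z z' : ℂ} {G : NonemptyCompacts ℂ}
    (h : Yw r s z z' G ≠ 0) :
    s / 2 < infDist z G ∧ s / 2 < infDist z' G ∧ bott z z' G < 2 * r := by
  unfold Yw at h
  refine ⟨?_, ?_, ?_⟩
  · by_contra h1
    apply h
    have : infDist z G / s ≤ 1 / 2 := by rw [div_le_iff₀ hs]; linarith
    rw [c01_zero (x := 2 * infDist z G / s - 1) (by rw [mul_div_assoc]; linarith)]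
    ring
  · by_contra h1
    apply h
    have : infDist z' G / s ≤ 1 / 2 := by rw [div_le_iff₀ hs]; linarith
    rw [c01_zero (x := 2 * infDist z' G / s - 1) (by rw [mul_div_assoc]; linarith)]
    ring
  · by_contra h1
    apply h
    have : 2 ≤ bott z z' G / r := by rw [le_div_iff₀ hr]; linarith
    rw [c01_zero (x := 2 - bott z z' G / r) (by linarith)]
    ring

/-- the test function of the gaskets and heights -/
noncomputable def Fw (k : ℕ) (r s : ℝ) (z z' : ℂ)
    (p : (Fin (k + 2) → NonemptyCompacts ℂ) × (Fin (k + 2) → Fin 2 → ℝ)) : ℝ :=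
  Yw r s z z' (p.1 (Fin.last (k + 1))) *
    (c11 (p.2 (Fin.last (k + 1)) 0 - p.2 (Fin.castSucc (Fin.last k)) 0) *
      c11 (p.2 (Fin.last (k + 1)) 1 - p.2 (Fin.castSucc (Fin.last k)) 1))

theorem continuous_Fw (k : ℕ) (r s : ℝ) (z z' : ℂ) : Continuous (Fw k r s z z') := by
  unfold Fw
  refine ((continuous_Yw r s z z').comp ?_).mul
    ((continuous_c11.comp ?_).mul (continuous_c11.comp ?_)) <;> fun_prop

theorem abs_Fw_le (k : ℕ) (r s : ℝ) (z z' : ℂ)
    (p : (Fin (k + 2) → NonemptyCompacts ℂ) × (Fin (k + 2) → Fin 2 → ℝ)) :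
    |Fw k r s z z' p| ≤ 1 := by
  unfold Fw
  rw [abs_mul, abs_mul]
  exact mul_le_one₀ (abs_Yw_le _ _ _ _ _) (by positivity)
    (mul_le_one₀ (abs_c11_le _) (abs_nonneg _) (abs_c11_le _))

/-- a normalised bump near `z` -/
theorem exists_bump (z : ℂ) {ρ : ℝ} (hρ : 0 < ρ) :
    ∃ φ : ℂ → ℝ, IsTest (ball z ρ) φ ∧ ∫ w, φ w = 1 := by
  let f : ContDiffBump z := ⟨ρ / 4, ρ / 2, by positivity, by linarith⟩
  refine ⟨f.normed volume, ⟨f.contDiff_normed, f.hasCompactSupport_normed, ?_⟩, f.integral_normed⟩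
  rw [f.tsupport_normed_eq]
  exact closedBall_subset_ball (by show ρ / 2 < ρ; linarith)

/-- the increment of the integrated height near `z` -/
theorem heightInt_inc {δ : ℝ} (hδ : 0 < δ) {a : ℂ} {T : Temp} {ω : Conf} (hω : ω ∈ DD T.V)
    {k : ℕ} {z : ℂ} {ρ : ℝ} (hρ : 0 ≤ ρ)
    (hsub : closedBall z ρ ⊆ interior (region δ a (Ok T (k + 1) ω))) {φ : ℂ → ℝ}
    (hφ : Integrable φ) (hoff : ∀ w, w ∉ closedBall z ρ → φ w = 0) :
    heightInt δ a (k + 1) ω φ - heightInt δ a k ω φ = (ic k ω (K.cell δ a z) : ℝ) * ∫ w, φ w := by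
  have hT := (Skel.a_fin T).2.1
  rw [K1.heightInt_eq hω hT hδ a _ hφ, K1.heightInt_eq hω hT hδ a _ hφ, ← integral_sub,
    ← integral_const_mul]
  · refine integral_congr_ae (Eventually.of_forall fun w => ?_)
    beta_reduce
    by_cases hw : w ∈ closedBall z ρ
    · have h1 := K1.inc_const hδ hω (convex_closedBall z ρ).isPreconnected hsub hw
        (mem_closedBall_self hρ)
      have h2 : K1.step δ a (k + 1) ω w - K1.step δ a k ω w = (K1.inc δ a k ω w : ℝ) := by
        unfold K1.step K1.inc; push_cast; ring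
      rw [← sub_mul, h2, h1]
      rfl
    · rw [hoff w hw]; simp
  · exact hφ.bdd_mul (K1.measurable_step δ a _ ω).aestronglyMeasurable
      (Eventually.of_forall fun w => by
        rw [Real.norm_eq_abs]; exact K1.abs_step_le hω δ a _ w)
  · exact hφ.bdd_mul (K1.measurable_step δ a _ ω).aestronglyMeasurable
      (Eventually.of_forall fun w => by
        rw [Real.norm_eq_abs]; exact K1.abs_step_le hω δ a _ w)

/-- a ball inside the polygon and off the gasket lies in the faces of `O^{(k)}` -/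
theorem ball_sub_Ok {δ : ℝ} {a : ℂ} {T : Temp} {k : ℕ} {ω : Conf} {z : ℂ} {ρ : ℝ}
    (h1 : closedBall z ρ ⊆ interior (region δ a T.faceSet))
    (h2 : ρ < infDist z (gasket δ a T k ω)) :
    closedBall z ρ ⊆ interior (region δ a (Ok T k ω)) := by
  intro w hw
  by_contra hw'
  have h3 : w ∈ gasket δ a T k ω := ⟨interior_subset (h1 hw), hw'⟩
  have h4 := infDist_le_dist_of_mem (x := z) h3
  rw [mem_closedBall, dist_comm] at hw
  linarith

theorem ic_pm {δ : ℝ} (hδ : 0 < δ) {a : ℂ} {T : Temp} {ω : Conf} (hω : ω ∈ DD T.V) {k : ℕ}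
    {z : ℂ} (hz : z ∈ interior (region δ a (Ok T (k + 1) ω))) :
    (ic k ω (K.cell δ a z) : ℝ) = 1 ∨ (ic k ω (K.cell δ a z) : ℝ) = -1 := by
  rcases K1.inc_pm hδ hω hz with h | h
  · left
    have : ic k ω (K.cell δ a z) = 1 := h
    rw [this]; norm_num
  · right
    have : ic k ω (K.cell δ a z) = -1 := h
    rw [this]; norm_num

/-- `Fw` on the lattice -/
theorem Fw_lat {δ : ℝ} (hδ : 0 < δ) {a : ℂ} {T : Temp} {ω : Conf} (hω : ω ∈ DD T.V) {k : ℕ}
    {r s : ℝ} (hr : 0 < r) (hs : 0 < s) {z z' : ℂ}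
    (hz : closedBall z (s / 2) ⊆ interior (region δ a T.faceSet))
    (hz' : closedBall z' (s / 2) ⊆ interior (region δ a T.faceSet))
    {χ : Fin 2 → ℂ → ℝ} (h0 : IsTest (ball z (s / 2)) (χ 0)) (h0' : ∫ w, χ 0 w = 1)
    (h1 : IsTest (ball z' (s / 2)) (χ 1)) (h1' : ∫ w, χ 1 w = 1) :
    Fw k r s z z' (fun l => toNC (gasket δ a T l ω), fun l i => heightInt δ a l ω (χ i)) =
      Yw r s z z' (toNC (gasket δ a T (k + 1) ω)) *
        ((ic k ω (K.cell δ a z) : ℝ) * ic k ω (K.cell δ a z')) := by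
  unfold Fw
  simp only [Fin.val_last, Fin.val_castSucc]
  by_cases hY : Yw r s z z' (toNC (gasket δ a T (k + 1) ω)) = 0
  · rw [hY, zero_mul, zero_mul]
  · obtain ⟨e1, e2, -⟩ := Yw_ne hr hs hY
    rw [KConn.coe_toNC_gasket hδ a T (k + 1) hω] at e1 e2
    have b1 := ball_sub_Ok hz e1
    have b2 := ball_sub_Ok hz' e2
    have o : ∀ {y : ℂ} {φ : ℂ → ℝ}, IsTest (ball y (s / 2)) φ → ∀ w, w ∉ closedBall y (s / 2) →
        φ w = 0 := fun hφ w hw =>
      K1.test_zero_off hφ fun h => hw (ball_subset_closedBall h)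
    rw [heightInt_inc hδ hω (by positivity) b1 (K1.test_integrable h0) (o h0),
      heightInt_inc hδ hω (by positivity) b2 (K1.test_integrable h1) (o h1), h0', h1', mul_one,
      mul_one, c11_pm (ic_pm hδ hω (b1 (mem_closedBall_self (by positivity)))),
      c11_pm (ic_pm hδ hω (b2 (mem_closedBall_self (by positivity))))]

/-- lattice side: the probability of the bad event is at most the expectation of `Fw` -/
theorem Pr_le_Ex {δ : ℝ} (hδ : 0 < δ) {a : ℂ} {T : Temp} {k : ℕ}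
    {r s : ℝ} (hr : 0 < r) (hs : 0 < s) {z z' : ℂ}
    (hz : closedBall z (s / 2) ⊆ interior (region δ a T.faceSet))
    (hz' : closedBall z' (s / 2) ⊆ interior (region δ a T.faceSet))
    {χ : Fin 2 → ℂ → ℝ} (h0 : IsTest (ball z (s / 2)) (χ 0)) (h0' : ∫ w, χ 0 w = 1)
    (h1 : IsTest (ball z' (s / 2)) (χ 1)) (h1' : ∫ w, χ 1 w = 1) :
    Pr T.V (fun ω => s ≤ infDist z (gasket δ a T (k + 1) ω) ∧
      s ≤ infDist z' (gasket δ a T (k + 1) ω) ∧ bott z z' (gasket δ a T (k + 1) ω) ≤ r ∧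
      SameLev (k + 1) ω (K.cell δ a z) (K.cell δ a z')) ≤
    Ex T.V (fun ω => Fw k r s z z' (fun l => toNC (gasket δ a T l ω),
      fun l i => heightInt δ a l ω (χ i))) := by
  classical
  have e1 : Ex T.V (fun ω => Fw k r s z z' (fun l => toNC (gasket δ a T l ω),
      fun l i => heightInt δ a l ω (χ i))) =
      Ex T.V (fun ω => Yw r s z z' (toNC (gasket δ a T (k + 1) ω)) *
        ((ic k ω (K.cell δ a z) : ℝ) * ic k ω (K.cell δ a z'))) := by
    unfold Ex
    congr 1
    exact Finset.sum_congr rfl fun ω hω => Fw_lat hδ hω hr hs hz hz' h0 h0' h1 h1'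
  rw [e1, ex_cov k _ _ (fun ω => Yw r s z z' (toNC (gasket δ a T (k + 1) ω)))
    (fun ω _ S => by rw [gasket_swap])]
  unfold Pr Ex
  rw [smul_eq_mul, smul_eq_mul]
  refine mul_le_mul_of_nonneg_left (Finset.sum_le_sum fun ω hω => ?_) (by positivity)
  have hY0 := Yw_nonneg r s z z' (toNC (gasket δ a T (k + 1) ω))
  by_cases hE : s ≤ infDist z (gasket δ a T (k + 1) ω) ∧
      s ≤ infDist z' (gasket δ a T (k + 1) ω) ∧ bott z z' (gasket δ a T (k + 1) ω) ≤ r ∧
      SameLev (k + 1) ω (K.cell δ a z) (K.cell δ a z')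
  · have hm : ∀ A : Set Conf, ω ∈ A → A.indicator (fun _ => (1 : ℝ)) ω = 1 := fun A h =>
      Set.indicator_of_mem h _
    rw [hm _ hE, if_pos hE.2.2.2, mul_one, Yw_one hr hs]
    · rw [KConn.coe_toNC_gasket hδ a T (k + 1) hω]; exact hE.1
    · rw [KConn.coe_toNC_gasket hδ a T (k + 1) hω]; exact hE.2.1
    · rw [KConn.coe_toNC_gasket hδ a T (k + 1) hω]; exact hE.2.2.1
  · have hm : ∀ A : Set Conf, ω ∉ A → A.indicator (fun _ => (1 : ℝ)) ω = 0 := fun A h =>
      Set.indicator_of_notMem h _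
    rw [hm _ hE]
    split_ifs
    · rw [mul_one]; exact hY0
    · rw [mul_zero]

end Vale.Agent.P155.T211Q
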